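import Vale.Agent.N363.Main

/-!
# P363: the assertion holds for one and two electrons

The assertion of the question holds for every molecule with at most two electrons; for two
electrons the density is positive and is the density of a pure ground state of `H_s(v)`, where `v`
is the potential of the nuclei plus a bounded function.
-/

namespace Vale.Agent.Results.P363.A0TwoElectrons

open Vale.Agent.P363.Stmt Vale.Agent.P370T Vale.Agent.P363L

theorem result :
    (∀ n ≤ 1, ∀ (M : ℕ) (Z : Fin M → ℕ) (R : Fin M → R3) (ψ : HN (n + 1)),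
      ψ ∈ groundSpace (ham (coulombPotential Z R)) → ‖ψ‖ = 1 →
        Representable (n + 1) (dens ψ)) ∧
    (∀ (M : ℕ) (Z : Fin M → ℕ) (R : Fin M → R3) (ψ : HN (1 + 1)),
      ψ ∈ groundSpace (ham (coulombPotential Z R)) → ‖ψ‖ = 1 →
        (AE3 fun r => 0 < dens ψ r) ∧ ∃ v : R3 → ℝ, MemV v ∧
          LpR3 ⊤ (fun r => v r - ∑ j, -((Z j : ℝ) / ‖r - R j‖)) ∧ ∃ φ : HN (1 + 1),
            φ ∈ groundSpace (ham (sumPotential v)) ∧ ‖φ‖ = 1 ∧
              AE3 fun r => dens φ r = dens ψ r) :=
  ⟨fun n hn _ Z R => N363.small n hn Z R, fun _ Z R => N363.two Z R⟩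

end Vale.Agent.Results.P363.A0TwoElectrons
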